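import Vale.Agent.Lib.P335.Bip.ThreeTauA
import Vale.Agent.Lib.P335.Bip.ThreeTauB

/-!
# P335 / bipartite core: the column transposition `tau` (collects `ThreeTauA`, `ThreeTauB`)
-/
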